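import Vale.Agent.SqFree.Data

namespace Vale.Agent.SqFree

lemma fam3 : Fam ((7568 : ℕ) / (10000 : ℕ)) ((1859 : ℕ) / (10000 : ℕ)) (1 * 3) :=
  fam_of_chk 1 3 2 7568 1859 10000 1
    [1, 0, 0]
    [1, 0, 1]
    [1, 0, 1]
    (by norm_num : Nat.Prime 3).squarefree
    (by norm_num) (by norm_num) (by norm_num) (by norm_num) (by norm_num) (by norm_num)
    (by norm_num) (by decide +kernel) (by decide +kernel)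

lemma fam7 : Fam ((7568 : ℕ) / (10000 : ℕ)) ((902 : ℕ) / (10000 : ℕ)) (1 * 7) :=
  fam_of_chk 1 7 3 7568 902 10000 1
    [2, 0, 0, 0, 0, 0, 1]
    [1, 0, 0, 0, 0, 1, 1]
    [1, 0, 0, 0, 0, 1, 1]
    (by norm_num : Nat.Prime 7).squarefree
    (by norm_num) (by norm_num) (by norm_num) (by norm_num) (by norm_num) (by norm_num)
    (by norm_num) (by decide +kernel) (by decide +kernel)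

lemma fam11 : Fam ((7568 : ℕ) / (10000 : ℕ)) ((1116 : ℕ) / (10000 : ℕ)) (1 * 11) :=
  fam_of_chk 1 11 4 7568 1116 10000 1
    [3, 0, 0, 0, 0, 0, 0, 1, 0, 0, 2]
    [1, 0, 0, 0, 0, 0, 1, 1, 0, 0, 1]
    [1, 0, 0, 0, 0, 0, 1, 1, 0, 0, 1]
    (by norm_num : Nat.Prime 11).squarefree
    (by norm_num) (by norm_num) (by norm_num) (by norm_num) (by norm_num) (by norm_num)
    (by norm_num) (by decide +kernel) (by decide +kernel)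

lemma fam19 : Fam ((7568 : ℕ) / (10000 : ℕ)) ((603 : ℕ) / (10000 : ℕ)) (1 * 19) :=
  fam_of_chk 1 19 5 7568 603 10000 1
    [4, 0, 2, 0, 0, 0, 0, 0, 0, 0, 0, 0, 1, 0, 0, 0, 0, 0, 3]
    [1, 0, 1, 0, 0, 0, 0, 0, 0, 0, 0, 0, 1, 0, 1, 0, 0, 0, 1]
    [1, 0, 1, 0, 0, 0, 0, 0, 0, 0, 0, 0, 1, 0, 1, 0, 0, 0, 1]
    (by norm_num : Nat.Prime 19).squarefree
    (by norm_num) (by norm_num) (by norm_num) (by norm_num) (by norm_num) (by norm_num)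
    (by norm_num) (by decide +kernel) (by decide +kernel)

lemma fam31 : Fam ((7568 : ℕ) / (10000 : ℕ)) ((936 : ℕ) / (10000 : ℕ)) (1 * 31) :=
  fam_of_chk 1 31 7 7568 936 10000 1
    [6, 0, 0, 0, 0, 0, 0, 0, 0, 0, 0, 0, 0, 0, 0, 0, 0, 0, 0, 0, 0, 0, 1, 4, 0, 0, 3, 0, 0, 2,
     5]
    [1, 0, 0, 0, 0, 0, 0, 0, 0, 0, 0, 0, 0, 0, 0, 0, 0, 0, 0, 0, 0, 1, 1, 1, 0, 0, 1, 0, 0, 1,
     1]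
    [1, 0, 0, 0, 0, 0, 0, 0, 0, 0, 0, 0, 0, 0, 0, 0, 0, 0, 0, 0, 0, 1, 1, 1, 0, 0, 1, 0, 0, 1,
     1]
    (by norm_num : Nat.Prime 31).squarefree
    (by norm_num) (by norm_num) (by norm_num) (by norm_num) (by norm_num) (by norm_num)
    (by norm_num) (by decide +kernel) (by decide +kernel)

lemma fam43 : Fam ((7568 : ℕ) / (10000 : ℕ)) ((72 : ℕ) / (10000 : ℕ)) (1 * 43) :=
  fam_of_chk 1 43 7 7568 72 10000 1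
    [6, 0, 0, 0, 0, 0, 0, 0, 0, 0, 0, 0, 0, 0, 0, 0, 0, 0, 2, 4, 0, 0, 0, 0, 0, 0, 1, 3, 0, 0,
     0, 0, 0, 0, 0, 0, 0, 0, 0, 0, 0, 0, 5]
    [1, 0, 1, 0, 0, 0, 0, 0, 0, 0, 0, 0, 0, 0, 0, 0, 0, 0, 1, 1, 0, 0, 0, 0, 0, 0, 1, 1, 0, 0,
     0, 0, 0, 0, 0, 0, 0, 0, 0, 0, 0, 0, 1]
    [1, 0, 1, 0, 0, 0, 0, 0, 0, 0, 0, 0, 0, 0, 0, 0, 0, 0, 1, 1, 0, 0, 0, 0, 0, 0, 1, 1, 0, 0,
     0, 0, 0, 0, 0, 0, 0, 0, 0, 0, 0, 0, 1]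
    (by norm_num : Nat.Prime 43).squarefree
    (by norm_num) (by norm_num) (by norm_num) (by norm_num) (by norm_num) (by norm_num)
    (by norm_num) (by decide +kernel) (by decide +kernel)

lemma fam59 : Fam ((7568 : ℕ) / (10000 : ℕ)) ((468 : ℕ) / (10000 : ℕ)) (1 * 59) :=
  fam_of_chk 1 59 9 7568 468 10000 1
    [8, 0, 0, 0, 0, 0, 0, 0, 0, 0, 0, 0, 0, 0, 0, 0, 0, 0, 0, 0, 0, 0, 0, 0, 0, 0, 0, 0, 0, 0,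
     0, 6, 0, 2, 0, 0, 0, 4, 0, 1, 0, 0, 5, 0, 0, 0, 0, 0, 0, 0, 0, 0, 0, 0, 0, 3, 0, 0, 7]
    [1, 0, 0, 0, 0, 0, 0, 0, 0, 0, 0, 0, 0, 0, 0, 0, 0, 0, 0, 0, 0, 0, 0, 0, 0, 0, 0, 0, 0, 0,
     1, 1, 0, 1, 0, 0, 0, 1, 0, 1, 0, 0, 1, 0, 0, 0, 0, 0, 0, 0, 0, 0, 0, 0, 0, 1, 0, 0, 1]
    [1, 0, 0, 0, 0, 0, 0, 0, 0, 0, 0, 0, 0, 0, 0, 0, 0, 0, 0, 0, 0, 0, 0, 0, 0, 0, 0, 0, 0, 0,
     1, 1, 0, 1, 0, 0, 0, 1, 0, 1, 0, 0, 1, 0, 0, 0, 0, 0, 0, 0, 0, 0, 0, 0, 0, 1, 0, 0, 1]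
    (by norm_num : Nat.Prime 59).squarefree
    (by norm_num) (by norm_num) (by norm_num) (by norm_num) (by norm_num) (by norm_num)
    (by norm_num) (by decide +kernel) (by decide +kernel)

lemma fam71 : Fam ((7568 : ℕ) / (10000 : ℕ)) ((36 : ℕ) / (10000 : ℕ)) (1 * 71) :=
  fam_of_chk 1 71 9 7568 36 10000 1
    [8, 0, 0, 0, 0, 0, 0, 0, 0, 0, 0, 0, 0, 2, 0, 0, 0, 0, 0, 0, 0, 3, 6, 0, 0, 0, 0, 0, 0, 0,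
     0, 0, 0, 5, 0, 0, 0, 0, 0, 0, 0, 0, 0, 0, 0, 0, 0, 0, 0, 0, 0, 0, 0, 0, 0, 1, 0, 0, 0, 0,
     0, 4, 0, 0, 0, 0, 0, 0, 0, 0, 7]
    [1, 0, 0, 0, 0, 0, 0, 0, 0, 0, 0, 0, 0, 1, 0, 0, 0, 0, 0, 0, 0, 1, 1, 0, 0, 0, 0, 0, 0, 0,
     0, 0, 0, 1, 0, 0, 0, 0, 0, 0, 0, 0, 0, 0, 0, 0, 0, 0, 0, 0, 0, 0, 0, 0, 0, 1, 0, 0, 0, 0,
     0, 1, 0, 0, 0, 0, 0, 0, 1, 0, 1]
    [1, 0, 0, 0, 0, 0, 0, 0, 0, 0, 0, 0, 0, 1, 0, 0, 0, 0, 0, 0, 0, 1, 1, 0, 0, 0, 0, 0, 0, 0,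
     0, 0, 0, 1, 0, 0, 0, 0, 0, 0, 0, 0, 0, 0, 0, 0, 0, 0, 0, 0, 0, 0, 0, 0, 0, 1, 0, 0, 0, 0,
     0, 1, 0, 0, 0, 0, 0, 0, 1, 0, 1]
    (by norm_num : Nat.Prime 71).squarefree
    (by norm_num) (by norm_num) (by norm_num) (by norm_num) (by norm_num) (by norm_num)
    (by norm_num) (by decide +kernel) (by decide +kernel)

lemma fam103 : Fam ((7568 : ℕ) / (10000 : ℕ)) ((72 : ℕ) / (10000 : ℕ)) (1 * 103) :=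
  fam_of_chk 1 103 11 7568 72 10000 1
    [10, 0, 0, 0, 0, 7, 0, 0, 0, 0, 0, 3, 0, 0, 0, 0, 0, 0, 0, 0, 0, 0, 0, 0, 0, 0, 0, 0, 0, 0,
     0, 0, 0, 0, 0, 0, 0, 0, 0, 8, 0, 0, 1, 0, 4, 0, 0, 0, 0, 0, 0, 0, 0, 0, 0, 0, 0, 0, 0, 0,
     0, 0, 0, 0, 0, 0, 0, 0, 0, 0, 5, 0, 0, 0, 6, 0, 0, 0, 0, 0, 0, 0, 0, 0, 0, 0, 0, 0, 0, 0,
     0, 0, 0, 0, 0, 0, 0, 0, 0, 0, 0, 2, 9]
    [1, 0, 0, 0, 0, 1, 0, 0, 0, 0, 1, 1, 0, 0, 0, 0, 0, 0, 0, 0, 0, 0, 0, 0, 0, 0, 0, 0, 0, 0,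
     0, 0, 0, 0, 0, 0, 0, 0, 0, 1, 0, 0, 1, 0, 1, 0, 0, 0, 0, 0, 0, 0, 0, 0, 0, 0, 0, 0, 0, 0,
     0, 0, 0, 0, 0, 0, 0, 0, 0, 0, 1, 0, 0, 0, 1, 0, 0, 0, 0, 0, 0, 0, 0, 0, 0, 0, 0, 0, 0, 0,
     0, 0, 0, 0, 0, 0, 0, 0, 0, 0, 0, 1, 1]
    [1, 0, 0, 0, 0, 1, 0, 0, 0, 0, 1, 1, 0, 0, 0, 0, 0, 0, 0, 0, 0, 0, 0, 0, 0, 0, 0, 0, 0, 0,
     0, 0, 0, 0, 0, 0, 0, 0, 0, 1, 0, 0, 1, 0, 1, 0, 0, 0, 0, 0, 0, 0, 0, 0, 0, 0, 0, 0, 0, 0,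
     0, 0, 0, 0, 0, 0, 0, 0, 0, 0, 1, 0, 0, 0, 1, 0, 0, 0, 0, 0, 0, 0, 0, 0, 0, 0, 0, 0, 0, 0,
     0, 0, 0, 0, 0, 0, 0, 0, 0, 0, 0, 1, 1]
    (by norm_num : Nat.Prime 103).squarefree
    (by norm_num) (by norm_num) (by norm_num) (by norm_num) (by norm_num) (by norm_num)
    (by norm_num) (by decide +kernel) (by decide +kernel)

lemma fam16 : Fam ((7568 : ℕ) / (10000 : ℕ)) ((1258 : ℕ) / (10000 : ℕ)) (4 * 1) :=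
  fam_of_chk 4 1 22 7568 1258 10000 100000
    [0, 0, 7, 0, 15, 0, 9, 11, 0, 0, 0, 13, 15, 0, 0, 15]
    [0, 7, 2, 0, 7, 0, 2, 2, 0, 7, 0, 2, 7, 0, 7, 7]
    [0, 127736, 109111, 0, 127736, 0, 109111, 109111, 0, 127736, 0, 109111, 127736, 0, 127736,
     127736]
    squarefree_one
    (by norm_num) (by norm_num) (by norm_num) (by norm_num) (by norm_num) (by norm_num)
    (by norm_num) (by decide +kernel) (by decide +kernel)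

lemma fam115 : Fam ((7568 : ℕ) / (10000 : ℕ)) ((267 : ℕ) / (10000 : ℕ)) (1 * 115) :=
  fam_of_chk 1 115 6 7568 267 10000 1
    [0, 0, 5, 0, 3, 0, 0, 0, 0, 0, 0, 0, 0, 0, 1, 0, 0, 0, 0, 0, 5, 0, 0, 0, 0, 0, 0, 0, 0, 0,
     4, 0, 0, 0, 0, 0, 0, 0, 0, 0, 0, 0, 0, 0, 0, 0, 0, 0, 0, 0, 0, 0, 0, 0, 0, 0, 0, 0, 0, 0,
     0, 0, 0, 0, 0, 0, 0, 3, 4, 0, 0, 0, 0, 0, 0, 0, 0, 0, 2, 0, 0, 1, 0, 0, 0, 0, 0, 0, 0, 0,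
     0, 0, 0, 0, 0, 0, 0, 0, 0, 0, 0, 0, 0, 0, 0, 0, 0, 0, 0, 0, 2, 0, 0, 0, 0]
    [0, 0, 1, 0, 1, 0, 0, 0, 0, 0, 0, 0, 0, 0, 1, 0, 0, 0, 0, 0, 1, 0, 0, 0, 0, 0, 0, 0, 0, 0,
     1, 0, 0, 0, 0, 0, 0, 0, 0, 0, 0, 0, 0, 0, 0, 0, 0, 0, 0, 0, 0, 0, 0, 0, 0, 0, 0, 0, 0, 0,
     0, 0, 0, 0, 0, 0, 0, 1, 1, 0, 0, 0, 0, 0, 0, 0, 0, 0, 1, 0, 0, 1, 0, 0, 0, 0, 1, 0, 1, 0,
     0, 0, 0, 0, 0, 0, 0, 0, 0, 0, 0, 0, 0, 0, 0, 0, 0, 0, 0, 0, 1, 0, 0, 0, 0]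
    [0, 0, 1, 0, 1, 0, 0, 0, 0, 0, 0, 0, 0, 0, 1, 0, 0, 0, 0, 0, 1, 0, 0, 0, 0, 0, 0, 0, 0, 0,
     1, 0, 0, 0, 0, 0, 0, 0, 0, 0, 0, 0, 0, 0, 0, 0, 0, 0, 0, 0, 0, 0, 0, 0, 0, 0, 0, 0, 0, 0,
     0, 0, 0, 0, 0, 0, 0, 1, 1, 0, 0, 0, 0, 0, 0, 0, 0, 0, 1, 0, 0, 1, 0, 0, 0, 0, 1, 0, 1, 0,
     0, 0, 0, 0, 0, 0, 0, 0, 0, 0, 0, 0, 0, 0, 0, 0, 0, 0, 0, 0, 1, 0, 0, 0, 0]
    (by
      rw [show (115 : ℕ) = 5 * 23 from rfl, Nat.squarefree_mul (by norm_num)]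
      exact ⟨(by norm_num : Nat.Prime 5).squarefree, (by norm_num : Nat.Prime 23).squarefree⟩)
    (by norm_num) (by norm_num) (by norm_num) (by norm_num) (by norm_num) (by norm_num)
    (by norm_num) (by decide +kernel) (by decide +kernel)

theorem lower :
    ∃ c : ℝ, 0 < c ∧ ∀ N : ℕ, 1 ≤ N → ∃ A : Finset ℕ, A ⊆ Finset.Icc 1 N ∧
      (∀ x ∈ A, ∀ y ∈ A, ∀ n : ℕ, 1 ≤ n → (x : ℤ) - y ≠ (n : ℤ) ^ 2) ∧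
      c * (N : ℝ) ^ (((7568 : ℕ) : ℝ) / (10000 : ℕ)) ≤ A.card :=
  lower_of_fam (by norm_num) (by norm_num)
    (Fam.mul (by norm_num) (Fam.mul (by norm_num) (Fam.mul (by norm_num) (Fam.mul (by
    norm_num) (Fam.mul (by norm_num) (Fam.mul (by norm_num) (Fam.mul (by norm_num) (Fam.mul
    (by norm_num) (Fam.mul (by norm_num) (Fam.mul (by norm_num) fam3 fam7) fam11) fam19)
    fam31) fam43) fam59) fam71) fam103) fam16) fam115)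

end Vale.Agent.SqFree
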