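import Mathlib

namespace Vale.Agent.SqFree
open Finset

/-- Interval block: residues `S` modulo `M` with intervals `[a x, a x + w x) ⊆ [0, L]`, such that a
square difference forces the interval of the minuend above that of the subtrahend. -/
def IBlk (M L : ℕ) (S : Finset ℕ) (a w : ℕ → ℕ) : Prop :=
  (∀ x ∈ S, x < M ∧ 1 ≤ w x ∧ a x + w x ≤ L) ∧
  ∀ x ∈ S, ∀ y ∈ S, x ≠ y → ∀ z : ℤ, (M : ℤ) ∣ (x : ℤ) - y - z ^ 2 → a y + w y ≤ a x

lemma IBlk.mono {M L L' : ℕ} {S : Finset ℕ} {a w : ℕ → ℕ} (h : IBlk M L S a w) (hL : L ≤ L') :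
    IBlk M L' S a w :=
  ⟨fun x hx => ⟨(h.1 x hx).1, (h.1 x hx).2.1, (h.1 x hx).2.2.trans hL⟩, h.2⟩

lemma IBlk.unif {M L : ℕ} {S : Finset ℕ} {a w : ℕ → ℕ} (h : IBlk M L S a w) :
    IBlk M L S a (fun _ => 1) := by
  refine ⟨fun x hx => ⟨(h.1 x hx).1, le_rfl, ?_⟩, fun x hx y hy hxy z hz => ?_⟩
  · have := h.1 x hx
    show a x + 1 ≤ L
    omega
  · have := h.2 x hx y hy hxy z hz
    have := h.1 y hy
    show a y + 1 ≤ a x
    omega

/-- general two-digit lemma -/
lemma digit_sum (m : ℕ) (S1 S2 : Finset ℕ) (hS : ∀ x ∈ S1, x < m) (φ : ℕ → ℕ → ℝ) :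
    ∑ x ∈ (S1 ×ˢ S2).image (fun p => p.1 + m * p.2), φ (x % m) (x / m)
      = ∑ x ∈ S1, ∑ y ∈ S2, φ x y := by
  rw [Finset.sum_image, Finset.sum_product]
  · refine Finset.sum_congr rfl fun x hx => Finset.sum_congr rfl fun y _ => ?_
    have := hS x hx
    have hm : 0 < m := by omega
    simp [Nat.add_mul_mod_self_left, Nat.mod_eq_of_lt this, Nat.add_mul_div_left _ _ hm,
      Nat.div_eq_of_lt this]
  · rintro ⟨x, y⟩ hx ⟨x', y'⟩ hx' h
    simp only [Finset.coe_product, Set.mem_prod, Finset.mem_coe] at hx hx'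
    have h1 := hS x hx.1
    have h2 := hS x' hx'.1
    have hm : 0 < m := by omega
    simp only at h
    have e1 : (x + m * y) % m = (x' + m * y') % m := by rw [h]
    have e2 : (x + m * y) / m = (x' + m * y') / m := by rw [h]
    simp [Nat.add_mul_mod_self_left, Nat.mod_eq_of_lt h1, Nat.mod_eq_of_lt h2] at e1
    simp [Nat.add_mul_div_left _ _ hm, Nat.div_eq_of_lt h1, Nat.div_eq_of_lt h2] at e2
    simp [e1, e2]

lemma lex {s L1 M2 L2 : ℕ} {S1 S2 : Finset ℕ} {a1 w1 a2 w2 : ℕ → ℕ}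
    (h1 : IBlk (s ^ 2) L1 S1 a1 w1) (h2 : IBlk M2 L2 S2 a2 w2) :
    ∃ S a w, IBlk (s ^ 2 * M2) (L1 * L2) S a w ∧
      ∀ G : ℝ, ∑ x ∈ S, (w x : ℝ) ^ G = (∑ x ∈ S1, (w1 x : ℝ) ^ G) * ∑ x ∈ S2, (w2 x : ℝ) ^ G := by
  set m := s ^ 2 with hm
  refine ⟨(S1 ×ˢ S2).image (fun p => p.1 + m * p.2),
    fun x => a1 (x % m) * L2 + w1 (x % m) * a2 (x / m), fun x => w1 (x % m) * w2 (x / m), ?_, ?_⟩
  · have key : ∀ x ∈ S1, ∀ y, (x + m * y) % m = x ∧ (x + m * y) / m = y := by
      intro x hx y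
      have := (h1.1 x hx).1
      have hm : 0 < m := by omega
      simp [Nat.add_mul_mod_self_left, Nat.mod_eq_of_lt this, Nat.add_mul_div_left _ _ hm,
        Nat.div_eq_of_lt this]
    constructor
    · intro x hx
      simp only [Finset.mem_image, Finset.mem_product] at hx
      obtain ⟨⟨u, v⟩, ⟨hu, hv⟩, rfl⟩ := hx
      simp only at hu hv ⊢
      rw [(key u hu v).1, (key u hu v).2]
      obtain ⟨p1, p2, p3⟩ := h1.1 u hu
      obtain ⟨q1, q2, q3⟩ := h2.1 v hv
      refine ⟨by nlinarith, Nat.mul_pos p2 q2, ?_⟩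
      calc a1 u * L2 + w1 u * a2 v + w1 u * w2 v = a1 u * L2 + w1 u * (a2 v + w2 v) := by ring
        _ ≤ a1 u * L2 + w1 u * L2 := by gcongr
        _ = (a1 u + w1 u) * L2 := by ring
        _ ≤ L1 * L2 := by gcongr
    · intro x hx y hy hxy z hz
      simp only [Finset.mem_image, Finset.mem_product] at hx hy
      obtain ⟨⟨u, v⟩, ⟨hu, hv⟩, rfl⟩ := hx
      obtain ⟨⟨u', v'⟩, ⟨hu', hv'⟩, rfl⟩ := hy
      simp only at hu hv hu' hv' hxy hz ⊢
      rw [(key u hu v).1, (key u hu v).2, (key u' hu' v').1, (key u' hu' v').2]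
      obtain ⟨q1, q2, q3⟩ := h2.1 v' hv'
      push_cast at hz
      by_cases huu : u = u'
      · subst huu
        have hvv : v ≠ v' := fun h => hxy (by rw [h])
        have hmpos : 0 < m := by have := (h1.1 u hu).1; omega
        have hs : (s : ℤ) ≠ 0 := by
          intro h
          have : s = 0 := by exact_mod_cast h
          simp [hm, this] at hmpos
        have hmz : (m : ℤ) = (s : ℤ) ^ 2 := by simp [hm]
        have hd : (s : ℤ) ^ 2 ∣ z ^ 2 := by
          have h3 : (m : ℤ) ∣ (u : ℤ) + m * v - (u + m * v') - z ^ 2 :=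
            (Dvd.intro _ rfl).trans hz
          have h4 : (m : ℤ) ∣ (m : ℤ) * (v - v') := Dvd.intro _ rfl
          have h5 := (Int.dvd_sub h4 h3)
          rw [← hmz]
          convert h5 using 1
          ring
        obtain ⟨t, rfl⟩ := (Int.pow_dvd_pow_iff (by norm_num)).1 hd
        have h6 : (M2 : ℤ) ∣ (v : ℤ) - v' - t ^ 2 := by
          have hm0 : (m : ℤ) ≠ 0 := by rw [hmz]; positivity
          apply (mul_dvd_mul_iff_left hm0).1
          have e : (m : ℤ) * ((v : ℤ) - v' - t ^ 2)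
              = (u : ℤ) + m * v - (u + m * v') - (s * t) ^ 2 := by rw [hmz]; ring
          rw [e]; exact hz
        have := h2.2 v hv v' hv' hvv t h6
        calc a1 u * L2 + w1 u * a2 v' + w1 u * w2 v' = a1 u * L2 + w1 u * (a2 v' + w2 v') := by ring
          _ ≤ a1 u * L2 + w1 u * a2 v := by gcongr
      · have h3 : (m : ℤ) ∣ (u : ℤ) + m * v - (u' + m * v') - z ^ 2 :=
          (Dvd.intro _ rfl).trans hz
        have h4 : (m : ℤ) ∣ (m : ℤ) * (v - v') := Dvd.intro _ rfl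
        have h5 : (m : ℤ) ∣ (u : ℤ) - u' - z ^ 2 := by
          convert Int.dvd_sub h3 h4 using 1
          ring
        have := h1.2 u hu u' hu' huu z h5
        calc a1 u' * L2 + w1 u' * a2 v' + w1 u' * w2 v'
            = a1 u' * L2 + w1 u' * (a2 v' + w2 v') := by ring
          _ ≤ a1 u' * L2 + w1 u' * L2 := by gcongr
          _ = (a1 u' + w1 u') * L2 := by ring
          _ ≤ a1 u * L2 := by gcongr
          _ ≤ _ := Nat.le_add_right _ _
  · intro G
    have := digit_sum m S1 S2 (fun x hx => (h1.1 x hx).1)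
      (fun x y => ((w1 x * w2 y : ℕ) : ℝ) ^ G)
    rw [this, Finset.sum_mul_sum]
    refine Finset.sum_congr rfl fun x _ => Finset.sum_congr rfl fun y _ => ?_
    push_cast
    rw [Real.mul_rpow (by positivity) (by positivity)]

lemma pow_blk {s L : ℕ} {S : Finset ℕ} {a w : ℕ → ℕ} (h : IBlk (s ^ 2) L S a w) (n : ℕ) :
    ∃ S' a' w', IBlk ((s ^ 2) ^ n) (L ^ n) S' a' w' ∧
      ∀ G : ℝ, ∑ x ∈ S', (w' x : ℝ) ^ G = (∑ x ∈ S, (w x : ℝ) ^ G) ^ n := by
  induction n with
  | zero =>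
    refine ⟨{0}, fun _ => 0, fun _ => 1, ⟨by simp, ?_⟩, by simp⟩
    intro x hx y hy hxy
    simp at hx hy
    exact absurd (hx.trans hy.symm) hxy
  | succ n ih =>
    obtain ⟨S', a', w', hb, hs⟩ := ih
    obtain ⟨S2, a2, w2, hb2, hs2⟩ := lex h hb
    refine ⟨S2, a2, w2, ?_, fun G => ?_⟩
    · rw [pow_succ' (s ^ 2), pow_succ' L]; exact hb2
    · rw [hs2, hs, pow_succ']

/-- lifting a block from modulus `r² q` to modulus `(r q)²` by a free digit -/
lemma lift {r q L : ℕ} {T : Finset ℕ} {a w : ℕ → ℕ} (hq : Squarefree q) (hc : Nat.Coprime r q)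
    (h : IBlk (r ^ 2 * q) L T a w) :
    ∃ S a' w', IBlk ((r * q) ^ 2) L S a' w' ∧
      ∀ G : ℝ, ∑ x ∈ S, (w' x : ℝ) ^ G = q * ∑ x ∈ T, (w x : ℝ) ^ G := by
  set m := r ^ 2 * q with hm
  refine ⟨(T ×ˢ range q).image (fun p => p.1 + m * p.2),
    fun x => a (x % m), fun x => w (x % m), ?_, ?_⟩
  · have key : ∀ x ∈ T, ∀ y, (x + m * y) % m = x := by
      intro x hx y
      have := (h.1 x hx).1
      simp [Nat.add_mul_mod_self_left, Nat.mod_eq_of_lt this]
    have hM : (r * q) ^ 2 = m * q := by rw [hm]; ring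
    constructor
    · intro x hx
      simp only [Finset.mem_image, Finset.mem_product, Finset.mem_range] at hx
      obtain ⟨⟨u, v⟩, ⟨hu, hv⟩, rfl⟩ := hx
      simp only at hu hv ⊢
      rw [key u hu v]
      obtain ⟨p1, p2, p3⟩ := h.1 u hu
      refine ⟨by rw [hM]; nlinarith, p2, p3⟩
    · intro x hx y hy hxy z hz
      simp only [Finset.mem_image, Finset.mem_product, Finset.mem_range] at hx hy
      obtain ⟨⟨u, v⟩, ⟨hu, hv⟩, rfl⟩ := hx
      obtain ⟨⟨u', v'⟩, ⟨hu', hv'⟩, rfl⟩ := hy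
      simp only at hu hv hu' hv' hxy hz ⊢
      rw [key u hu v, key u' hu' v']
      rw [hM] at hz
      rw [Nat.cast_mul m q] at hz
      push_cast at hz
      have h3 : (m : ℤ) ∣ (u : ℤ) + m * v - (u' + m * v') - z ^ 2 :=
        (Dvd.intro _ rfl).trans hz
      have h4 : (m : ℤ) ∣ (m : ℤ) * (v - v') := Dvd.intro _ rfl
      have h5 : (m : ℤ) ∣ (u : ℤ) - u' - z ^ 2 := by
        convert Int.dvd_sub h3 h4 using 1
        ring
      by_cases huu : u = u'
      · exfalso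
        subst huu
        have hvv : v ≠ v' := fun h => hxy (by rw [h])
        have hmpos : 0 < m := by have := (h.1 u hu).1; omega
        have hmz : (m : ℤ) = (r : ℤ) ^ 2 * q := by simp [hm]
        have hd : (m : ℤ) ∣ z ^ 2 := by
          have : (u : ℤ) - u - z ^ 2 = - z ^ 2 := by ring
          rw [this] at h5
          exact (Int.dvd_neg).1 h5
        have hr : (r : ℤ) ∣ z := by
          apply (Int.pow_dvd_pow_iff (n := 2) (by norm_num)).1
          exact (Dvd.intro _ hmz.symm).trans hd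
        have hqz : (q : ℤ) ∣ z := by
          have hsq : Squarefree (q : ℤ) := Int.squarefree_natCast.2 hq
          apply (hsq.dvd_pow_iff_dvd (n := 2) (by norm_num)).1
          exact (Dvd.intro_left _ hmz.symm).trans hd
        have hrq : (r : ℤ) * q ∣ z :=
          (Nat.isCoprime_iff_coprime.2 hc).mul_dvd hr hqz
        obtain ⟨t, rfl⟩ := hrq
        have h6 : (m : ℤ) * q ∣ ((r : ℤ) * q * t) ^ 2 := ⟨t ^ 2, by rw [hmz]; ring⟩
        have h7 : (m : ℤ) * q ∣ (m : ℤ) * (v - v') := by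
          convert Int.dvd_add hz h6 using 1
          ring
        have hm0 : (m : ℤ) ≠ 0 := by exact_mod_cast hmpos.ne'
        have h8 := (mul_dvd_mul_iff_left hm0).1 h7
        have := Int.eq_zero_of_abs_lt_dvd h8 (by rw [abs_lt]; constructor <;> omega)
        omega
      · exact h.2 u hu u' hu' huu z h5
  · intro G
    have := digit_sum m T (range q) (fun x hx => (h.1 x hx).1)
      (fun x _ => (w x : ℝ) ^ G)
    rw [this, Finset.mul_sum]
    refine Finset.sum_congr rfl fun x _ => ?_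
    simp

lemma crt {M1 M2 L1 L2 : ℕ} {S1 S2 : Finset ℕ} {a1 a2 : ℕ → ℕ} (hc : Nat.Coprime M1 M2)
    (h1 : IBlk M1 L1 S1 a1 (fun _ => 1)) (h2 : IBlk M2 L2 S2 a2 (fun _ => 1)) :
    ∃ S a, IBlk (M1 * M2) (L1 + L2) S a (fun _ => 1) ∧ S.card = S1.card * S2.card := by
  refine ⟨(range (M1 * M2)).filter (fun x => x % M1 ∈ S1 ∧ x % M2 ∈ S2),
    fun x => a1 (x % M1) + a2 (x % M2), ⟨?_, ?_⟩, ?_⟩
  · intro x hx
    simp only [Finset.mem_filter, Finset.mem_range] at hx
    have := h1.1 _ hx.2.1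
    have := h2.1 _ hx.2.2
    simp only at *
    omega
  · intro x hx y hy hxy z hz
    simp only [Finset.mem_filter, Finset.mem_range] at hx hy
    push_cast at hz
    have red : ∀ M : ℕ, (M : ℤ) ∣ (x : ℤ) - y - z ^ 2 →
        (M : ℤ) ∣ ((x % M : ℕ) : ℤ) - ((y % M : ℕ) : ℤ) - z ^ 2 := by
      intro M hM
      have e1 : (M : ℤ) ∣ (x : ℤ) - ((x % M : ℕ) : ℤ) := (Nat.mod_modEq x M).dvd
      have e2 : (M : ℤ) ∣ (y : ℤ) - ((y % M : ℕ) : ℤ) := (Nat.mod_modEq y M).dvd
      convert Int.dvd_add (Int.dvd_sub hM e1) e2 using 1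
      ring
    have d1 := red M1 ((Dvd.intro _ rfl).trans hz)
    have d2 := red M2 ((Dvd.intro_left _ rfl).trans hz)
    show a1 (y % M1) + a2 (y % M2) + 1 ≤ a1 (x % M1) + a2 (x % M2)
    by_cases e1 : x % M1 = y % M1 <;> by_cases e2 : x % M2 = y % M2
    · exfalso
      have : x ≡ y [MOD M1 * M2] := (Nat.modEq_and_modEq_iff_modEq_mul hc).1 ⟨e1, e2⟩
      exact hxy (Nat.ModEq.eq_of_lt_of_lt this hx.1 hy.1)
    · have := h2.2 _ hx.2.2 _ hy.2.2 e2 z d2
      simp only at this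
      rw [e1]; omega
    · have := h1.2 _ hx.2.1 _ hy.2.1 e1 z d1
      simp only at this
      rw [e2]; omega
    · have := h1.2 _ hx.2.1 _ hy.2.1 e1 z d1
      have := h2.2 _ hx.2.2 _ hy.2.2 e2 z d2
      simp only at *
      omega
  · rw [← Finset.card_product]
    apply Finset.card_bij (fun x _ => (x % M1, x % M2))
    · intro x hx
      simp only [Finset.mem_filter, Finset.mem_range] at hx
      simp [hx.2.1, hx.2.2]
    · intro x hx y hy hxy
      simp only [Finset.mem_filter, Finset.mem_range] at hx hy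
      simp only [Prod.mk.injEq] at hxy
      have : x ≡ y [MOD M1 * M2] := (Nat.modEq_and_modEq_iff_modEq_mul hc).1 ⟨hxy.1, hxy.2⟩
      exact Nat.ModEq.eq_of_lt_of_lt this hx.1 hy.1
    · rintro ⟨u, v⟩ huv
      simp only [Finset.mem_product] at huv
      have p1 := (h1.1 u huv.1).1
      have p2 := (h2.1 v huv.2).1
      have hlt := Nat.chineseRemainder_lt_mul hc u v (by omega) (by omega)
      have q := (Nat.chineseRemainder hc u v).2
      have q1 : (Nat.chineseRemainder hc u v : ℕ) % M1 = u := by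
        have := q.1; unfold Nat.ModEq at this; rw [this, Nat.mod_eq_of_lt p1]
      have q2 : (Nat.chineseRemainder hc u v : ℕ) % M2 = v := by
        have := q.2; unfold Nat.ModEq at this; rw [this, Nat.mod_eq_of_lt p2]
      refine ⟨Nat.chineseRemainder hc u v, ?_, by simp [q1, q2]⟩
      simp only [Finset.mem_filter, Finset.mem_range]
      exact ⟨hlt, by rw [q1]; exact huv.1, by rw [q2]; exact huv.2⟩

end Vale.Agent.SqFree
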