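import Vale.Agent.SqFree.Fam

namespace Vale.Agent.SqFree
open Finset

/-- finite check of an interval block modulo `m` -/
def chkBlk (m L : ℕ) (al wl : List ℕ) : Bool :=
  (List.range m).all fun y => (wl.getD y 0 == 0) ||
    (decide (al.getD y 0 + wl.getD y 0 ≤ L) &&
      (List.range m).all fun z =>
        ((y + z ^ 2) % m == y) || (wl.getD ((y + z ^ 2) % m) 0 == 0) ||
          decide (al.getD y 0 + wl.getD y 0 ≤ al.getD ((y + z ^ 2) % m) 0))

/-- finite check of the numerical inequality -/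
def chkNum (r q L A g D d : ℕ) (wl bl : List ℕ) : Bool :=
  ((List.range (r ^ 2 * q)).all fun y =>
    decide ((bl.getD y 0) ^ D ≤ (wl.getD y 0) ^ g * d ^ D)) &&
  decide (((r * q) ^ 2) ^ A * L ^ g * d ^ D
    < (q * ((List.range (r ^ 2 * q)).map fun y => bl.getD y 0).sum) ^ D)

lemma blk_of_chk {m L : ℕ} {al wl : List ℕ} (h : chkBlk m L al wl = true) :
    IBlk m L ((range m).filter (fun x => wl.getD x 0 ≠ 0)) (fun x => al.getD x 0)
      (fun x => wl.getD x 0) := by
  simp only [chkBlk, List.all_eq_true, List.mem_range, Bool.or_eq_true, beq_iff_eq,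
    Bool.and_eq_true, decide_eq_true_eq] at h
  constructor
  · intro x hx
    simp only [Finset.mem_filter, Finset.mem_range] at hx
    rcases h x hx.1 with h1 | h1
    · exact absurd h1 hx.2
    · exact ⟨hx.1, Nat.one_le_iff_ne_zero.2 hx.2, h1.1⟩
  · intro x hx y hy hxy z hz
    simp only [Finset.mem_filter, Finset.mem_range] at hx hy
    have hm : 0 < m := by omega
    have hmz : (0 : ℤ) < m := by exact_mod_cast hm
    obtain ⟨t, ht⟩ : ∃ t : ℕ, (t : ℤ) = z % m :=
      ⟨(z % m).toNat, Int.toNat_of_nonneg (Int.emod_nonneg _ hmz.ne')⟩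
    have htm : t < m := by
      have := Int.emod_lt_of_pos z hmz
      omega
    have hx' : (y + t ^ 2) % m = x := by
      have e1 : (m : ℤ) ∣ z - t := by rw [ht]; exact Int.dvd_self_sub_emod
      have e2 : (m : ℤ) ∣ (x : ℤ) - ((y + t ^ 2 : ℕ) : ℤ) := by
        push_cast
        have := Int.dvd_add hz (Dvd.dvd.mul_right e1 (z + t))
        convert this using 1
        ring
      have e3 : (y + t ^ 2) ≡ x [MOD m] := (Nat.modEq_iff_dvd).2 e2
      unfold Nat.ModEq at e3
      rw [e3, Nat.mod_eq_of_lt hx.1]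
    rcases h y hy.1 with h1 | h1
    · exact absurd h1 hy.2
    · have := h1.2 t htm
      rw [hx'] at this
      rcases this with (h2 | h2) | h2
      · exact absurd h2 hxy
      · exact absurd h2 hx.2
      · exact h2

lemma rpow_div_eq (x g D : ℕ) : (x : ℝ) ^ ((g : ℝ) / D) = ((x ^ g : ℕ) : ℝ) ^ ((D : ℝ)⁻¹) := by
  rw [div_eq_mul_inv, Real.rpow_mul (by positivity), Real.rpow_natCast, Nat.cast_pow]

lemma fam_of_chk (r q L A g D d : ℕ) (al wl bl : List ℕ) (hq : Squarefree q)
    (hc : Nat.Coprime r q) (hr : 1 ≤ r) (hL : 1 ≤ L) (hD : 1 ≤ D) (hd : 1 ≤ d) (hg0 : 1 ≤ g)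
    (hg : g ≤ D)
    (h1 : chkBlk (r ^ 2 * q) L al wl = true) (h2 : chkNum r q L A g D d wl bl = true) :
    Fam ((A : ℝ) / D) ((g : ℝ) / D) (r * q) := by
  have hD' : (0 : ℝ) < D := by exact_mod_cast hD
  have hd' : (0 : ℝ) < d := by exact_mod_cast hd
  have hq1 : 1 ≤ q := Nat.pos_of_ne_zero hq.ne_zero
  obtain ⟨S, a, w, hb, hs⟩ := lift hq hc (blk_of_chk h1)
  refine fam_of_blk (by positivity) (by rw [div_le_one hD']; exact_mod_cast hg)
    (Nat.mul_pos hr hq1) hL hb ?_
  rw [hs]
  simp only [chkNum, List.all_eq_true, List.mem_range, Bool.and_eq_true, decide_eq_true_eq] at h2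
  obtain ⟨h3, h4⟩ := h2
  set B := ((List.range (r ^ 2 * q)).map fun y => bl.getD y 0).sum with hB
  have hB' : (B : ℝ) = ∑ y ∈ range (r ^ 2 * q), (bl.getD y 0 : ℝ) := by
    rw [hB, ← Nat.cast_sum, Finset.sum_list_map_count, ← Finset.sum_list_map_count]
    rfl
  have e1 : (B : ℝ) / d ≤ ∑ x ∈ (range (r ^ 2 * q)).filter (fun x => wl.getD x 0 ≠ 0),
      ((wl.getD x 0 : ℕ) : ℝ) ^ ((g : ℝ) / D) := by
    rw [Finset.sum_filter, hB', Finset.sum_div]
    refine Finset.sum_le_sum fun y hy => ?_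
    have h5 := h3 y (Finset.mem_range.1 hy)
    split_ifs with h6
    · rw [rpow_div_eq, Real.le_rpow_inv_iff_of_pos (by positivity) (by positivity) hD',
        Real.rpow_natCast, div_pow, div_le_iff₀ (by positivity)]
      exact_mod_cast h5
    · have h7 : wl.getD y 0 = 0 := by simpa using h6
      rw [h7, zero_pow (by omega), zero_mul] at h5
      have : bl.getD y 0 = 0 := by
        have := Nat.eq_zero_of_le_zero h5
        exact pow_eq_zero_iff (by omega) |>.1 this
      rw [this]; simp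
  have e2 : (((r * q) ^ 2 : ℕ) : ℝ) ^ ((A : ℝ) / D) * (L : ℝ) ^ ((g : ℝ) / D) < q * (B / d) := by
    rw [rpow_div_eq, rpow_div_eq, ← Real.mul_rpow (by positivity) (by positivity),
      Real.rpow_inv_lt_iff_of_pos (by positivity) (by positivity) hD', Real.rpow_natCast,
      ← mul_div_assoc, div_pow, lt_div_iff₀ (by positivity)]
    exact_mod_cast h4
  calc _ < q * ((B : ℝ) / d) := e2
    _ ≤ _ := by gcongr

end Vale.Agent.SqFree
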