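import Vale.Agent.SqFree.Core

namespace Vale.Agent.SqFree
open Finset

/-- A family of uniform blocks of every height, with gain exponent `G` at exponent `α`,
built on moduli all of whose prime factors divide `m`. -/
def Fam (α G : ℝ) (m : ℕ) : Prop :=
  ∃ (c : ℝ) (C K : ℕ) (M : ℕ → ℕ), 0 < c ∧ 1 ≤ C ∧ 1 ≤ K ∧ ∀ H, 1 ≤ H →
    1 ≤ M H ∧ M (H + 1) ≤ C * M H ∧ (∃ j, M H ∣ m ^ j) ∧
    ∃ S a, IBlk (M H) (K * H) S a (fun _ => 1) ∧ c * (M H : ℝ) ^ α * (H : ℝ) ^ G ≤ S.card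

lemma Fam.mul {α G1 G2 : ℝ} {m1 m2 : ℕ} (hc : Nat.Coprime m1 m2)
    (h1 : Fam α G1 m1) (h2 : Fam α G2 m2) : Fam α (G1 + G2) (m1 * m2) := by
  obtain ⟨c1, C1, K1, M1, hc1, hC1, hK1, h1⟩ := h1
  obtain ⟨c2, C2, K2, M2, hc2, hC2, hK2, h2⟩ := h2
  refine ⟨c1 * c2, C1 * C2, K1 + K2, fun H => M1 H * M2 H, by positivity, Nat.mul_pos hC1 hC2,
    by omega, fun H hH => ?_⟩
  obtain ⟨p1, p2, ⟨j1, p3⟩, S1, a1, p4, p5⟩ := h1 H hH
  obtain ⟨q1, q2, ⟨j2, q3⟩, S2, a2, q4, q5⟩ := h2 H hH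
  have hcop : Nat.Coprime (M1 H) (M2 H) :=
    Nat.Coprime.coprime_dvd_left p3 (Nat.Coprime.coprime_dvd_right q3 (hc.pow j1 j2))
  refine ⟨Nat.mul_pos p1 q1, ?_, ⟨j1 + j2, ?_⟩, ?_⟩
  · calc M1 (H + 1) * M2 (H + 1) ≤ (C1 * M1 H) * (C2 * M2 H) := by gcongr
      _ = _ := by ring
  · rw [mul_pow]
    exact mul_dvd_mul (p3.trans (pow_dvd_pow _ (by omega))) (q3.trans (pow_dvd_pow _ (by omega)))
  · obtain ⟨S, a, hb, hcard⟩ := crt hcop p4 q4
    refine ⟨S, a, by rw [add_mul]; exact hb, ?_⟩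
    have hH' : (0 : ℝ) < H := by exact_mod_cast hH
    rw [hcard]
    push_cast
    rw [Real.mul_rpow (by positivity) (by positivity), Real.rpow_add hH']
    calc c1 * c2 * ((M1 H : ℝ) ^ α * (M2 H : ℝ) ^ α) * ((H : ℝ) ^ G1 * (H : ℝ) ^ G2)
        = (c1 * (M1 H : ℝ) ^ α * (H : ℝ) ^ G1) * (c2 * (M2 H : ℝ) ^ α * (H : ℝ) ^ G2) := by ring
      _ ≤ _ := by gcongr

lemma fam_of_unif {α G : ℝ} (hG : 0 ≤ G) {s h m : ℕ} {S : Finset ℕ} {a w : ℕ → ℕ} (hs : 1 ≤ s)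
    (hh : 2 ≤ h) (hm : ∃ j, s ∣ m ^ j) (hb : IBlk (s ^ 2) h S a w)
    (hcard : ((s ^ 2 : ℕ) : ℝ) ^ α * (h : ℝ) ^ G ≤ S.card) : Fam α G m := by
  have hh' : (0 : ℝ) < h := by exact_mod_cast (by omega : 0 < h)
  refine ⟨1 / (h : ℝ) ^ G, s ^ 2, 1, fun H => (s ^ 2) ^ Nat.log h H, by positivity,
    Nat.one_le_pow _ _ hs, le_rfl, fun H hH => ⟨by
      exact Nat.one_le_pow _ _ (Nat.one_le_pow _ _ hs), ?_, ?_, ?_⟩⟩
  · rw [← pow_succ']
    apply Nat.pow_le_pow_right (Nat.one_le_pow _ _ hs)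
    rw [← Nat.log_mul_base (by omega) (by omega)]
    apply Nat.log_mono_right
    nlinarith
  · obtain ⟨j, hj⟩ := hm
    refine ⟨j * 2 * Nat.log h H, ?_⟩
    rw [pow_mul, pow_mul]
    exact pow_dvd_pow_of_dvd (pow_dvd_pow_of_dvd hj _) _
  · obtain ⟨S', a', w', hb', hs'⟩ := pow_blk hb (Nat.log h H)
    set j := Nat.log h H
    have hj1 : h ^ j ≤ H := Nat.pow_log_le_self h (by omega)
    have hj2 : H < h ^ (j + 1) := Nat.lt_pow_succ_log_self (by omega) H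
    refine ⟨S', a', (hb'.mono (by omega)).unif, ?_⟩
    have h0 := hs' 0
    simp only [Real.rpow_zero, Finset.sum_const, nsmul_eq_mul, mul_one] at h0
    rw [h0]
    have e1 : (H : ℝ) ^ G ≤ ((h : ℝ) ^ G) ^ (j + 1) := by
      rw [← Real.rpow_natCast, ← Real.rpow_mul hh'.le, mul_comm, Real.rpow_mul hh'.le,
        Real.rpow_natCast]
      apply Real.rpow_le_rpow (by positivity) _ hG
      exact_mod_cast hj2.le
    have e2 : ((((s ^ 2) ^ j : ℕ) : ℝ)) ^ α = (((s ^ 2 : ℕ) : ℝ) ^ α) ^ j := by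
      rw [Nat.cast_pow (s ^ 2), ← Real.rpow_natCast, ← Real.rpow_mul (by positivity), mul_comm,
        Real.rpow_mul (by positivity), Real.rpow_natCast]
    have hp : (0 : ℝ) < (h : ℝ) ^ G := by positivity
    calc 1 / (h : ℝ) ^ G * ((((s ^ 2) ^ j : ℕ) : ℝ)) ^ α * (H : ℝ) ^ G
        ≤ 1 / (h : ℝ) ^ G * (((s ^ 2 : ℕ) : ℝ) ^ α) ^ j * ((h : ℝ) ^ G) ^ (j + 1) := by
          rw [e2]; gcongr
      _ = (((s ^ 2 : ℕ) : ℝ) ^ α * (h : ℝ) ^ G) ^ j := by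
          rw [mul_pow, pow_succ ((h : ℝ) ^ G)]; field_simp
      _ ≤ _ := by gcongr

/-- pigeonhole on dyadic widths -/
lemma dyadic {M L B : ℕ} {S : Finset ℕ} {a w : ℕ → ℕ} (hb : IBlk M L S a w) {G : ℝ}
    (hG0 : 0 ≤ G) (hG1 : G ≤ 1) (hB : L < 2 ^ B) (hpos : 0 < ∑ x ∈ S, (w x : ℝ) ^ G) :
    ∃ S' a' h, 2 ≤ h ∧ IBlk M h S' a' (fun _ => 1) ∧
      (∑ x ∈ S, (w x : ℝ) ^ G) * (h : ℝ) ^ G ≤ 4 * B * (L : ℝ) ^ G * S'.card := by
  have hmaps : ∀ x ∈ S, Nat.log 2 (w x) ∈ range B := by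
    intro x hx
    have := hb.1 x hx
    rw [Finset.mem_range]
    exact Nat.log_lt_of_lt_pow (by omega) (by omega)
  have hSne : S.Nonempty := by
    rcases S.eq_empty_or_nonempty with h | h
    · simp [h] at hpos
    · exact h
  have hBne : (range B).Nonempty := by
    obtain ⟨x, hx⟩ := hSne
    exact ⟨_, hmaps x hx⟩
  have hBpos : (0 : ℝ) < B := by
    obtain ⟨k, hk⟩ := hBne
    have : 0 < B := by simp at hk; omega
    exact_mod_cast this
  set Z := ∑ x ∈ S, (w x : ℝ) ^ G with hZ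
  obtain ⟨k, -, hk⟩ := Finset.exists_le_sum_fiber_of_maps_to_of_nsmul_le_sum
    (f := fun x => Nat.log 2 (w x)) (w := fun x => (w x : ℝ) ^ G) (b := Z / B) hmaps hBne
    (by simp only [Finset.card_range, nsmul_eq_mul]; rw [mul_div_cancel₀ _ hBpos.ne'])
  set S' := S.filter (fun x => Nat.log 2 (w x) = k) with hS'
  have hw : ∀ x ∈ S', x ∈ S ∧ 2 ^ k ≤ w x ∧ w x < 2 ^ (k + 1) := by
    intro x hx
    rw [hS', Finset.mem_filter] at hx
    have := hb.1 x hx.1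
    refine ⟨hx.1, ?_, ?_⟩
    · rw [← hx.2]; exact Nat.pow_log_le_self 2 (by omega)
    · rw [← hx.2]; exact Nat.lt_pow_succ_log_self (by omega) _
  have hS'ne : S'.Nonempty := by
    rcases S'.eq_empty_or_nonempty with h | h
    · rw [h] at hk
      simp only [Finset.sum_empty] at hk
      have : 0 < Z / B := by positivity
      linarith
    · exact h
  have hkL : 2 ^ k ≤ L := by
    obtain ⟨x, hx⟩ := hS'ne
    have := hw x hx
    have := hb.1 x this.1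
    omega
  have h2k : 0 < 2 ^ k := by positivity
  have hq : 1 ≤ L / 2 ^ k := (Nat.le_div_iff_mul_le h2k).2 (by omega)
  refine ⟨S', fun x => a x / 2 ^ k, L / 2 ^ k + 1, by omega, ⟨?_, ?_⟩, ?_⟩
  · intro x hx
    have := hb.1 x (hw x hx).1
    refine ⟨this.1, le_rfl, ?_⟩
    show a x / 2 ^ k + 1 ≤ L / 2 ^ k + 1
    have : a x / 2 ^ k ≤ L / 2 ^ k := Nat.div_le_div_right (by omega)
    omega
  · intro x hx y hy hxy z hz
    have := hb.2 x (hw x hx).1 y (hw y hy).1 hxy z hz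
    have h2 := (hw y hy).2.1
    show a y / 2 ^ k + 1 ≤ a x / 2 ^ k
    rw [← Nat.add_div_right _ h2k]
    exact Nat.div_le_div_right (by omega)
  · have e1 : ∑ x ∈ S', (w x : ℝ) ^ G ≤ S'.card * ((2 : ℝ) ^ (k + 1)) ^ G := by
      rw [← nsmul_eq_mul]
      apply Finset.sum_le_card_nsmul
      intro x hx
      apply Real.rpow_le_rpow (by positivity) _ hG0
      exact_mod_cast (hw x hx).2.2.le
    have e2 : Z ≤ B * (S'.card * ((2 : ℝ) ^ (k + 1)) ^ G) := by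
      rw [div_le_iff₀ hBpos] at hk
      nlinarith
    have e3 : 2 ^ (k + 1) * (L / 2 ^ k + 1) ≤ 4 * L := by
      have := Nat.mul_div_le L (2 ^ k)
      rw [pow_succ]
      nlinarith
    have e4 : ((2 : ℝ) ^ (k + 1)) ^ G * ((L / 2 ^ k + 1 : ℕ) : ℝ) ^ G ≤ 4 * (L : ℝ) ^ G := by
      rw [← Real.mul_rpow (by positivity) (by positivity)]
      calc ((2 : ℝ) ^ (k + 1) * ((L / 2 ^ k + 1 : ℕ) : ℝ)) ^ G ≤ (4 * (L : ℝ)) ^ G := by
            apply Real.rpow_le_rpow (by positivity) _ hG0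
            exact_mod_cast e3
        _ = (4 : ℝ) ^ G * (L : ℝ) ^ G := Real.mul_rpow (by positivity) (by positivity)
        _ ≤ 4 * (L : ℝ) ^ G := by
            gcongr
            calc (4 : ℝ) ^ G ≤ (4 : ℝ) ^ (1 : ℝ) :=
                  Real.rpow_le_rpow_of_exponent_le (by norm_num) hG1
              _ = 4 := by simp
    calc Z * ((L / 2 ^ k + 1 : ℕ) : ℝ) ^ G
        ≤ B * (S'.card * ((2 : ℝ) ^ (k + 1)) ^ G) * ((L / 2 ^ k + 1 : ℕ) : ℝ) ^ G := by gcongr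
      _ = B * S'.card * (((2 : ℝ) ^ (k + 1)) ^ G * ((L / 2 ^ k + 1 : ℕ) : ℝ) ^ G) := by ring
      _ ≤ B * S'.card * (4 * (L : ℝ) ^ G) := by gcongr
      _ = _ := by ring

lemma fam_of_blk {α G : ℝ} (hG0 : 0 ≤ G) (hG1 : G ≤ 1) {s L : ℕ} {S : Finset ℕ} {a w : ℕ → ℕ}
    (hs : 1 ≤ s) (hL : 1 ≤ L) (hb : IBlk (s ^ 2) L S a w)
    (hZ : ((s ^ 2 : ℕ) : ℝ) ^ α * (L : ℝ) ^ G < ∑ x ∈ S, (w x : ℝ) ^ G) : Fam α G s := by
  set Z := ∑ x ∈ S, (w x : ℝ) ^ G with hZdef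
  set A := ((s ^ 2 : ℕ) : ℝ) ^ α with hA
  have hL' : (0 : ℝ) < L := by exact_mod_cast hL
  have hs' : (0 : ℝ) < ((s ^ 2 : ℕ) : ℝ) := by exact_mod_cast Nat.one_le_pow _ _ hs
  have hApos : 0 < A := by positivity
  have hD : 0 < A * (L : ℝ) ^ G := by positivity
  set ρ := Z / (A * (L : ℝ) ^ G) with hρ
  have hρ1 : 1 < ρ := by rw [hρ, lt_div_iff₀ hD]; linarith
  have ht := tendsto_pow_const_div_const_pow_of_one_lt 1 hρ1
  have hev := (ht.eventually (gt_mem_nhds (show (0 : ℝ) < 1 / (8 * L) by positivity))).and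
    (Filter.eventually_ge_atTop 1)
  obtain ⟨n, hn, hn1⟩ := hev.exists
  have hρn : 4 * ((n * L + 1 : ℕ) : ℝ) ≤ ρ ^ n := by
    rw [pow_one, div_lt_div_iff₀ (by positivity) (by positivity)] at hn
    have h1 : (1 : ℝ) ≤ n := by exact_mod_cast hn1
    have h2 : (1 : ℝ) ≤ L := by exact_mod_cast hL
    push_cast
    nlinarith
  obtain ⟨S1, a1, w1, hb1, hs1⟩ := pow_blk hb n
  have hB : L ^ n < 2 ^ (n * L + 1) := by
    calc L ^ n ≤ (2 ^ L) ^ n := Nat.pow_le_pow_left (Nat.lt_two_pow_self).le n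
      _ = 2 ^ (n * L) := by rw [← pow_mul, mul_comm]
      _ < _ := Nat.pow_lt_pow_right (by norm_num) (by omega)
  have hZpos : 0 < Z := hD.trans hZ
  obtain ⟨S', a', h, hh, hb', hc⟩ := dyadic hb1 hG0 hG1 hB (by rw [hs1 G]; positivity)
  rw [hs1 G] at hc
  have hsn : (s ^ 2) ^ n = (s ^ n) ^ 2 := by ring
  rw [hsn] at hb'
  refine fam_of_unif hG0 (Nat.one_le_pow _ _ hs) hh ⟨n, dvd_rfl⟩ hb' ?_
  have e2 : ((((s ^ n) ^ 2 : ℕ) : ℝ)) ^ α = A ^ n := by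
    rw [← hsn, Nat.cast_pow (s ^ 2), ← Real.rpow_natCast, ← Real.rpow_mul (by positivity),
      mul_comm, Real.rpow_mul (by positivity), Real.rpow_natCast]
  have e3 : (((L ^ n : ℕ) : ℝ)) ^ G = ((L : ℝ) ^ G) ^ n := by
    rw [Nat.cast_pow, ← Real.rpow_natCast, ← Real.rpow_mul (by positivity),
      mul_comm, Real.rpow_mul (by positivity), Real.rpow_natCast]
  have e4 : Z ^ n = ρ ^ n * A ^ n * ((L : ℝ) ^ G) ^ n := by
    rw [← mul_pow, ← mul_pow, hρ]; congr 1; field_simp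
  rw [e2]
  rw [e3, ← hZdef, e4] at hc
  have hP : 0 < 4 * ((n * L + 1 : ℕ) : ℝ) * ((L : ℝ) ^ G) ^ n := by positivity
  apply le_of_mul_le_mul_left _ hP
  refine le_trans ?_ hc
  calc 4 * ((n * L + 1 : ℕ) : ℝ) * ((L : ℝ) ^ G) ^ n * (A ^ n * (h : ℝ) ^ G)
      = 4 * ((n * L + 1 : ℕ) : ℝ) * (((L : ℝ) ^ G) ^ n * (A ^ n * (h : ℝ) ^ G)) := by ring
    _ ≤ ρ ^ n * (((L : ℝ) ^ G) ^ n * (A ^ n * (h : ℝ) ^ G)) := by gcongr
    _ = _ := by ring

lemma final_set {M L : ℕ} {S : Finset ℕ} {a : ℕ → ℕ} (hb : IBlk M L S a (fun _ => 1)) :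
    ∃ A : Finset ℕ, A ⊆ Finset.Icc 1 (M * L) ∧
      (∀ x ∈ A, ∀ y ∈ A, ∀ n : ℕ, 1 ≤ n → (x : ℤ) - y ≠ (n : ℤ) ^ 2) ∧ A.card = S.card := by
  refine ⟨S.image (fun x => 1 + x + M * (L - 1 - a x)), ?_, ?_, ?_⟩
  · intro x hx
    simp only [Finset.mem_image] at hx
    obtain ⟨u, hu, rfl⟩ := hx
    obtain ⟨p1, -, p3⟩ := hb.1 u hu
    simp only at p3
    rw [Finset.mem_Icc]
    refine ⟨by omega, ?_⟩
    calc 1 + u + M * (L - 1 - a u) ≤ M + M * (L - 1) := by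
          have : M * (L - 1 - a u) ≤ M * (L - 1) := Nat.mul_le_mul_left _ (by omega)
          omega
      _ = M * (L - 1 + 1) := by ring
      _ = M * L := by congr 1; omega
  · intro x hx y hy n hn hxy
    simp only [Finset.mem_image] at hx hy
    obtain ⟨u, hu, rfl⟩ := hx
    obtain ⟨v, hv, rfl⟩ := hy
    obtain ⟨p1, -, p3⟩ := hb.1 u hu
    obtain ⟨q1, -, q3⟩ := hb.1 v hv
    simp only at p3 q3
    have hn2 : (0 : ℤ) < (n : ℤ) ^ 2 := by positivity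
    obtain ⟨i, hi⟩ : ∃ i, L - 1 - a u = i := ⟨_, rfl⟩
    obtain ⟨j, hj⟩ : ∃ j, L - 1 - a v = j := ⟨_, rfl⟩
    rw [hi, hj] at hxy
    push_cast at hxy
    by_cases huv : u = v
    · subst huv
      have : i = j := by omega
      subst this
      linarith
    · have hd : (M : ℤ) ∣ (u : ℤ) - v - (n : ℤ) ^ 2 := ⟨(j : ℤ) - i, by linarith⟩
      have := hb.2 u hu v hv huv n hd
      simp only at this
      have hij : (i : ℤ) + 1 ≤ j := by omega
      have hu' : (u : ℤ) < M := by exact_mod_cast p1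
      have hv' : (0 : ℤ) ≤ v := by positivity
      have hM : (0 : ℤ) ≤ M := by positivity
      nlinarith
  · apply Finset.card_image_of_injOn
    intro u hu v hv huv
    have p1 := (hb.1 u hu).1
    have q1 := (hb.1 v hv).1
    simp only at huv
    have : (u + M * (L - 1 - a u)) % M = (v + M * (L - 1 - a v)) % M := by
      congr 1; omega
    simpa [Nat.add_mul_mod_self_left, Nat.mod_eq_of_lt p1, Nat.mod_eq_of_lt q1] using this

theorem lower_of_fam {α G : ℝ} {m : ℕ} (hα : 0 ≤ α) (hG : α ≤ G) (h : Fam α G m) :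
    ∃ c : ℝ, 0 < c ∧ ∀ N : ℕ, 1 ≤ N → ∃ A : Finset ℕ, A ⊆ Finset.Icc 1 N ∧
      (∀ x ∈ A, ∀ y ∈ A, ∀ n : ℕ, 1 ≤ n → (x : ℤ) - y ≠ (n : ℤ) ^ 2) ∧
      c * (N : ℝ) ^ α ≤ A.card := by
  classical
  obtain ⟨c, C, K, M, hc, hC, hK, h⟩ := h
  set F : ℕ → ℕ := fun H => M H * (K * H) with hF
  have hF1 : 1 ≤ F 1 := Nat.mul_pos (h 1 le_rfl).1 (by omega)
  have hD : (0 : ℝ) < ((2 * C * K : ℕ) : ℝ) := by
    exact_mod_cast Nat.mul_pos (by omega) hK
  have hF1' : (0 : ℝ) < (F 1 : ℝ) := by exact_mod_cast hF1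
  refine ⟨min (c / ((2 * C * K : ℕ) : ℝ) ^ α) (1 / (F 1 : ℝ) ^ α), by positivity,
    fun N hN => ?_⟩
  by_cases hN1 : F 1 ≤ N
  · have hex : ∃ H, N < F (H + 1) := by
      refine ⟨N, ?_⟩
      have := (h (N + 1) (by omega)).1
      show N < M (N + 1) * (K * (N + 1))
      nlinarith [Nat.mul_le_mul this (Nat.mul_le_mul_right (N + 1) hK)]
    have hH1 := Nat.find_spec hex
    set H := Nat.find hex with hH
    have hHpos : 1 ≤ H := by
      by_contra h0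
      have : H = 0 := by omega
      rw [this] at hH1
      simp only [zero_add] at hH1
      omega
    have hH0 : F H ≤ N := by
      have := Nat.find_min hex (show H - 1 < H by omega)
      rw [show H - 1 + 1 = H by omega] at this
      omega
    obtain ⟨p1, p2, -, S, a, hb, hcard⟩ := h H hHpos
    obtain ⟨A, hA1, hA2, hA3⟩ := final_set hb
    refine ⟨A, hA1.trans (Finset.Icc_subset_Icc_right hH0), hA2, ?_⟩
    rw [hA3]
    refine le_trans ?_ hcard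
    have hNle : N ≤ (2 * C * K) * (M H * H) := by
      have : F (H + 1) ≤ (C * M H) * (K * (2 * H)) := by
        show M (H + 1) * (K * (H + 1)) ≤ _
        gcongr
        omega
      nlinarith
    have hH' : (1 : ℝ) ≤ H := by exact_mod_cast hHpos
    have e1 : (N : ℝ) ^ α ≤ ((2 * C * K : ℕ) : ℝ) ^ α * ((M H : ℝ) ^ α * (H : ℝ) ^ G) := by
      calc (N : ℝ) ^ α ≤ (((2 * C * K : ℕ) : ℝ) * ((M H : ℝ) * H)) ^ α := by
            apply Real.rpow_le_rpow (by positivity) _ hα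
            exact_mod_cast hNle
        _ = ((2 * C * K : ℕ) : ℝ) ^ α * ((M H : ℝ) ^ α * (H : ℝ) ^ α) := by
            rw [Real.mul_rpow (by positivity) (by positivity),
              Real.mul_rpow (by positivity) (by positivity)]
        _ ≤ _ := by
            gcongr
    calc min (c / ((2 * C * K : ℕ) : ℝ) ^ α) (1 / (F 1 : ℝ) ^ α) * (N : ℝ) ^ α
        ≤ (c / ((2 * C * K : ℕ) : ℝ) ^ α) *
          (((2 * C * K : ℕ) : ℝ) ^ α * ((M H : ℝ) ^ α * (H : ℝ) ^ G)) := by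
          gcongr
          exact min_le_left _ _
      _ = _ := by field_simp
  · refine ⟨{1}, by simp [hN], ?_, ?_⟩
    · intro x hx y hy n hn
      simp only [Finset.mem_singleton] at hx hy
      subst hx hy
      have : (0 : ℤ) < (n : ℤ) ^ 2 := by positivity
      linarith
    · have e1 : (N : ℝ) ^ α ≤ (F 1 : ℝ) ^ α := by
        apply Real.rpow_le_rpow (by positivity) _ hα
        exact_mod_cast (by omega : N ≤ F 1)
      calc min (c / ((2 * C * K : ℕ) : ℝ) ^ α) (1 / (F 1 : ℝ) ^ α) * (N : ℝ) ^ α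
          ≤ (1 / (F 1 : ℝ) ^ α) * (F 1 : ℝ) ^ α := by
            gcongr
            exact min_le_right _ _
        _ = _ := by simp only [Finset.card_singleton]; field_simp; simp

end Vale.Agent.SqFree
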